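import Vale.Agent.P304.MM
import Vale.Agent.P304.Red
import Vale.Agent.P304.Track
import Vale.Agent.P304.Tree
import Vale.Agent.P304.Fin

namespace Vale.Agent.Results.P304.Polylog
open Vale.Agent.P304

universe u

theorem result : ∃ C : ℝ, ∀ k : ℕ, 2 ≤ k → ∀ (X : Type u) [MetricSpace X] (s : Fin k → X),
    ∃ (A : Policy X k) (B : ℝ), ∀ σ : List X,
      ecost A [] s σ ≤ C * Real.log k ^ 4 * opt s σ + B := by
  refine ⟨10 ^ 17, fun k hk X _ s => ?_⟩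
  have hk0 : 0 < k := by omega
  refine (of_bayes hk0 s _ _ fun Ω _ p σ hp h1 =>
    red s ⟨0, hk0⟩ (by positivity) (fun Y _ _ P z => ?_) p σ hp h1).imp fun A hA => ⟨_, hA⟩
  classical
  obtain ⟨h0, hh0, hlo⟩ : ∃ h0 : ℝ, 0 < h0 ∧ ∀ x y : Y, x ≠ y → h0 ≤ dist x y := by
    have hne : (Finset.univ : Finset (Y × Y)).Nonempty := ⟨(z, z), Finset.mem_univ _⟩
    obtain ⟨m, -, hm⟩ := Finset.exists_min_image _
      (fun w : Y × Y => if w.1 = w.2 then (1 : ℝ) else dist w.1 w.2) hne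
    refine ⟨_, ?_, fun x y hxy => by simpa [hxy] using hm (x, y) (Finset.mem_univ _)⟩
    split_ifs with h
    exacts [one_pos, dist_pos.2 h]
  obtain ⟨M, hM⟩ : ∃ M : ℝ, ∀ x y : Y, dist x y ≤ M := by
    obtain ⟨M, hM⟩ := (Set.finite_range fun w : Y × Y => dist w.1 w.2).bddAbove
    exact ⟨M, fun x y => hM ⟨(x, y), rfl⟩⟩
  obtain ⟨J, hJ⟩ := pow_unbounded_of_one_lt (M / h0) (by norm_num : (1 : ℝ) < 4)
  let C : Scale Y := ⟨h0, J, hh0, hlo, fun x y => by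
    rw [div_lt_iff₀' hh0] at hJ; exact (hM x y).trans_lt hJ⟩
  obtain ⟨V, _, ⟨T⟩⟩ := tree hk P C z
  obtain ⟨ν, F⟩ := T.frac hk
  exact F.virt hk

end Vale.Agent.Results.P304.Polylog
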